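import Crest.Agent.Lib.Propeller.Assemble
import Crest.Agent.Lib.Propeller.HStep
import Crest.Agent.Lib.Propeller.AB.K9
import Crest.Agent.Lib.Propeller.AB.K10
import Crest.Agent.Lib.Propeller.AB.K11
import Crest.Agent.Lib.Propeller.AB.K12
import Crest.Agent.Lib.Propeller.AB.K13
import Crest.Agent.Lib.Propeller.AB.K14
import Crest.Agent.Lib.Propeller.AB.K15
import Crest.Agent.Lib.Propeller.AB.K16
import Crest.Agent.Lib.Propeller.AB.K17
import Crest.Agent.Lib.Propeller.Step8
import Crest.Agent.Lib.Propeller.Step7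

/-!
# Propeller: the final assembly

The steps at the levels `k = 4, 5, 6` (`Step4`, `Step5`, `Step6`), `k = 7, 8` (`Step7`, `Step8`),
`k = 9, …, 17` (the certificates `AB.K9`, …, `AB.K17`), `k ≥ 18` (`HT.stepLarge`).
-/

set_option autoImplicit false
open MeasureTheory ProbabilityTheory

namespace Crest.Agent.Propeller.AB

universe u v

/-- The dimension in which the step at level `k` is done. -/
def dimOf (k : ℕ) : ℕ :=
  if k = 7 ∨ k = 9 ∨ k = 11 ∨ k = 13 ∨ k = 15 ∨ k = 17 then k else k - 1

lemma dimOf_ge (k : ℕ) : k - 1 ≤ dimOf k := by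
  unfold dimOf
  split_ifs <;> omega

lemma finrank_dimOf (k : ℕ) :
    Module.finrank ℝ (EuclideanSpace ℝ (Fin (dimOf k))) = dimOf k := by
  simp

/-- All the steps. -/
theorem step_all (k : ℕ) (hk : 4 ≤ k) (hP : PF (EuclideanSpace ℝ (Fin (dimOf k))) (k - 1))
    (z : Fin k → EuclideanSpace ℝ (Fin (dimOf k)))
    (A : Fin k → Set (EuclideanSpace ℝ (Fin (dimOf k)))) (hc : Critical z A) (hR : R < S z) :
    False := by
  have hfin := finrank_dimOf k
  rcases Nat.lt_or_ge k 18 with h18 | h18
  · interval_cases k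
    · exact step4 hfin hP z A hc hR
    · exact step5 hfin hP z A hc hR
    · exact step6 hfin hP z A hc hR
    · exact step7 hfin hP z A hc hR
    · exact step8 hfin hP z A hc hR
    · exact step9 hfin hP z A hc hR
    · exact step10 hfin hP z A hc hR
    · exact step11 hfin hP z A hc hR
    · exact step12 hfin hP z A hc hR
    · exact step13 hfin hP z A hc hR
    · exact step14 hfin hP z A hc hR
    · exact step15 hfin hP z A hc hR
    · exact step16 hfin hP z A hc hR
    · exact step17 hfin hP z A hc hR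
  · exact HT.stepLarge h18 hP hc hR

/-- **The final statement.** -/
theorem result_final {E : Type u} [NormedAddCommGroup E] [InnerProductSpace ℝ E]
    [FiniteDimensional ℝ E] [MeasurableSpace E] [BorelSpace E] {κ : Type v} [Fintype κ]
    (A : κ → Set E) (hA : ∀ i, MeasurableSet (A i))
    (hdisj : Pairwise fun i j => Disjoint (A i) (A j)) (hcov : ⋃ i, A i = Set.univ) :
    ∑ i, ‖∫ x in A i, x ∂stdGaussian E‖ ^ 2 ≤ 9 / (8 * Real.pi) :=
  partition_bound (PF_all_padded dimOf dimOf_ge step_all) ⟨hA, hdisj, hcov⟩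

end Crest.Agent.Propeller.AB
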